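import Vale.Agent.P365.CUL841.Bri77
import Vale.Agent.P365.CUL841.Final740
import Vale.Agent.P365.CUL841.MuEq755
import Vale.Agent.P365.T2.H692.Ramp
import Vale.Agent.P365.T2.H692.TLt
import Vale.Agent.P365.T2.ConcG795
import Vale.Agent.P365.T1G.Fin

set_option linter.all false

/-!
# P365 / T2 / H77 / End77: the end of block B6

The crossing quantity `TTor (mu2 lam tau0)` in label form of the concrete world, the floor removed,
bounded by the energy of the ramp.
-/

namespace P365T2.H77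

open MeasureTheory ProbabilityTheory Complex Matrix Function Filter Topology
open P365L P365L.TL P365L.Comp P365CU P365CUL P365CUL.Inst755 P365T1 P365T1.Lab37 P365T1.Conc
open P365T1.C11 P365T2.ConcG P365T2.H692 P365T2.H694
open Vale.Agent.P365.J376
open scoped ENNReal Real

section world

variable {β : ℕ} {lam : ℝ} {yf : ℕ → ℤ × ℤ} {Vsf : ℕ → ℤ × ℤ → ℝ} {rs I : ℕ}

theorem mov_iff (k : (P365T2.ConcG.PP β yf rs I).Lb) :
    (P365T2.ConcG.PP β yf rs I).mov k ↔ movL k := by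
  constructor
  · rintro (rfl | ⟨i, rfl⟩)
    · exact trivial
    · exact trivial
  · intro h
    rcases k with _ | _ | i | a
    · exact Or.inl rfl
    · exact absurd h id
    · exact Or.inr ⟨i, rfl⟩
    · exact absurd h id

/-- **`TTor` = `TLt` with the label data of the chain** -/
theorem TTor_world (h : AdmS β lam yf Vsf rs I) (N : ℕ) [NeZero N] {c : ℝ} (hc : 0 < c)
    (s E η : ℝ) (m : ℕ) :
    TTor (mu2 lam tau0) N c s ((E : ℂ) + (η : ℂ) * Complex.I) m =
      TLt (pS β yf rs I) (nuD β lam yf Vsf rs I) (P365T2.ConcG.PP β yf rs I).mov N c s E η m := by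
  rw [← muSV_eq h]
  exact TTor_mix h.prob (fun k => (h.pL_pos k).le) (fun k => bm_eq_true.trans (mov_iff k).symm) N
    hc s E η m

open Classical in
/-- **the crossing quantity at every small `η` from the energy of the ramp at the floor `b`** -/
theorem TTor_le_of_ramp (h : AdmS β lam yf Vsf rs I) (N : ℕ) [NeZero N] {c q : ℝ} (hc : 0 < c)
    (hq : 0 < q) (hq1 : q < 1) (E : ℝ) {b th : ℝ} (hb : 0 < b) (hth : 0 < th) {m : ℕ}
    (hm : 0 < m) (h1 : b ^ q * (2 * (N : ℝ) ^ 2 * (1 + 2 * (1 / (2 * lam)) / (1 - q))) ≤ th / 2)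
    (h2 : PhiG (AT N) (pS β yf rs I) (nuD β lam yf Vsf rs I) E (fun _ : Unit => ramp N m)
      (fun l y => b + if (P365T2.ConcG.PP β yf rs I).mov (l y) then prT N c m y else 0) ≤
        2 * (th / 2) ^ (2 / q)) {η : ℝ} (hη : 0 < η) (hηb : η ≤ b) :
    TTor (mu2 lam tau0) N c q ((E : ℂ) + (η : ℂ) * Complex.I) m ≤ ENNReal.ofReal th := by
  have hlam := h.hlam
  haveI := h.prob
  haveI : IsProbabilityMeasure (nuL lam) := by
    unfold nuL
    exact Measure.isProbabilityMeasure_map (by fun_prop)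
  have hp : ∀ k, 0 ≤ pS β yf rs I k := fun k => (h.pL_pos k).le
  have hD : (0 : ℝ) ≤ 1 / (2 * lam) := by positivity
  have hnu : ∀ k, IsProbabilityMeasure (nuD β lam yf Vsf rs I k) := h.prob
  rw [TTor_world h N hc]
  have e1 := TLt_floor (p := pS β yf rs I) (ν := nuD β lam yf Vsf rs I)
    (mov := (P365T2.ConcG.PP β yf rs I).mov) hp h.pL_sum h.mix hD
    (nuL_le hlam) hq hq1 N hc.le E hη hb m
  have e2 := TLt_le_ramp (p := pS β yf rs I) (ν := nuD β lam yf Vsf rs I) hp h.pL_sum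
    (P365T2.ConcG.PP β yf rs I).mov N hc.le hq (by linarith) E hb hm
  have e3 : |b - η| ^ q ≤ b ^ q := by
    refine Real.rpow_le_rpow (abs_nonneg _) ?_ hq.le
    rw [abs_of_nonneg (by linarith)]
    linarith
  have h1q : (0 : ℝ) < 1 - q := by linarith
  have e4 : |b - η| ^ q * (2 * (N : ℝ) ^ 2 * (1 + 2 * (1 / (2 * lam)) / (1 - q))) ≤ th / 2 := by
    refine le_trans (mul_le_mul_of_nonneg_right e3 ?_) h1
    positivity
  have e5 : (PhiG (AT N) (pS β yf rs I) (nuD β lam yf Vsf rs I) E (fun _ : Unit => ramp N m)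
      (fun l y => b + if (P365T2.ConcG.PP β yf rs I).mov (l y) then prT N c m y else 0) / 2) ^
        (q / 2) ≤ th / 2 := by
    rcases le_or_gt 0 (PhiG (AT N) (pS β yf rs I) (nuD β lam yf Vsf rs I) E
      (fun _ : Unit => ramp N m)
      (fun l y => b + if (P365T2.ConcG.PP β yf rs I).mov (l y) then prT N c m y else 0)) with
      h0 | h0
    · calc _ ≤ ((th / 2) ^ (2 / q)) ^ (q / 2) :=
            Real.rpow_le_rpow (by linarith) (by linarith) (by positivity)
        _ = th / 2 := by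
            rw [← Real.rpow_mul (by positivity)]
            have : 2 / q * (q / 2) = 1 := by field_simp
            rw [this, Real.rpow_one]
    · exfalso
      have h3 : 0 ≤ PhiG (AT N) (pS β yf rs I) (nuD β lam yf Vsf rs I) E
          (fun _ : Unit => ramp N m)
          (fun l y => b + if (P365T2.ConcG.PP β yf rs I).mov (l y) then prT N c m y else 0) := by
        unfold PhiG AvG Ex
        refine Finset.sum_nonneg fun l _ => mul_nonneg (Finset.prod_nonneg fun x _ => hp _)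
          (integral_nonneg fun v => ?_)
        refine Finset.sum_nonneg fun k _ => ?_
        unfold P365O.En
        have hx : ∀ x, 0 ≤ -(WV E ((fun (l : Tor N → (P365T2.ConcG.PP β yf rs I).Lb) y =>
            b + if (P365T2.ConcG.PP β yf rs I).mov (l y) then prT N c m y else 0) l) v x).im := by
          intro x
          have h4 : 0 ≤ (if (P365T2.ConcG.PP β yf rs I).mov (l x) then prT N c m x else 0) := by
            split_ifs
            · exact prT_nonneg77 hc.le m x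
            · exact le_rfl
          simp [WV]
          linarith
        exact Finset.sum_nonneg fun x _ => Finset.sum_nonneg fun y _ =>
          mul_nonneg (mul_nonneg (mul_nonneg (hx x) (hx y)) (KK_nonneg _ _)) (sq_nonneg _)
      linarith
  refine e1.trans ((add_le_add (e2.trans (ENNReal.ofReal_le_ofReal e5))
    (ENNReal.ofReal_le_ofReal e4)).trans (le_of_eq ?_))
  rw [← ENNReal.ofReal_add (by positivity) (by positivity)]
  congr 1
  ring

open Classical in
/-- **`SmTor (mu2 lam tau0) c q th E m` from the energy of the ramp** -/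
theorem smTor_of_ramp (h : AdmS β lam yf Vsf rs I) (N : ℕ) [NeZero N] {c q : ℝ} (hc : 0 < c)
    (hq : 0 < q) (hq1 : q < 1) (E : ℝ) {b th : ℝ} (hb : 0 < b) (hth : 0 < th) {m : ℕ}
    (hm : 0 < m) (hN : Even N) (h32 : 32 * m ≤ N)
    (h1 : b ^ q * (2 * (N : ℝ) ^ 2 * (1 + 2 * (1 / (2 * lam)) / (1 - q))) ≤ th / 2)
    (h2 : PhiG (AT N) (pS β yf rs I) (nuD β lam yf Vsf rs I) E (fun _ : Unit => ramp N m)
      (fun l y => b + if (P365T2.ConcG.PP β yf rs I).mov (l y) then prT N c m y else 0) ≤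
        2 * (th / 2) ^ (2 / q)) :
    P365CUL.SmTor (mu2 lam tau0) c q th E m :=
  ⟨N, inferInstance, hN, h32, b, hb, fun e he heb =>
    TTor_le_of_ramp h N hc hq hq1 E hb hth hm h1 h2 he heb⟩

/-- the number: the floor `b = 2^{-kC}` is invisible -/
theorem floor_num {q : ℝ} (hq : 0 < q) (A : ℝ) {th : ℝ} (hth : 0 < th) : ∃ C K : ℕ, 1 ≤ C ∧
    ∀ k ≥ K, ((1 / 2 ^ k : ℝ) ^ C) ^ q * (2 * ((32 * 2 ^ k : ℕ) : ℝ) ^ 2 * A) ≤ th / 2 := by
  obtain ⟨C, hC⟩ := exists_nat_ge (3 / q)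
  have hC1 : 3 ≤ (C : ℝ) * q := by
    rwa [div_le_iff₀ hq] at hC
  obtain ⟨K, hK⟩ := exists_pow_lt_of_lt_one (show (0 : ℝ) < th / (2 * (2048 * (|A| + 1))) by
    positivity) (show (1 / 2 : ℝ) < 1 by norm_num)
  have hCpos : 1 ≤ C := by
    rcases Nat.eq_zero_or_pos C with h0 | h0
    · rw [h0] at hC1
      norm_num at hC1
    · exact h0
  refine ⟨C, K, hCpos, fun k hk => ?_⟩
  have h2 : (1 / 2 : ℝ) ^ k ≤ th / (2 * (2048 * (|A| + 1))) :=
    (pow_le_pow_of_le_one (by norm_num) (by norm_num) hk).trans hK.le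
  have e1 : ((1 / 2 ^ k : ℝ) ^ C) ^ q = (1 / 2 : ℝ) ^ ((k : ℝ) * (C * q)) := by
    rw [show (1 / 2 ^ k : ℝ) = (1 / 2 : ℝ) ^ k by rw [_root_.one_div_pow], ← pow_mul,
      ← Real.rpow_natCast, ← Real.rpow_mul (by norm_num)]
    congr 1
    push_cast
    ring
  have e2 : (1 / 2 : ℝ) ^ ((k : ℝ) * (C * q)) ≤ (1 / 2 : ℝ) ^ (3 * k) := by
    rw [← Real.rpow_natCast (1 / 2 : ℝ) (3 * k)]
    refine Real.rpow_le_rpow_of_exponent_ge (by norm_num) (by norm_num) ?_
    push_cast
    have : (0 : ℝ) ≤ k := Nat.cast_nonneg k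
    nlinarith
  have e3 : (2 : ℝ) * ((32 * 2 ^ k : ℕ) : ℝ) ^ 2 * A ≤ 2048 * (2 ^ k) ^ 2 * (|A| + 1) := by
    push_cast
    have h4 := le_abs_self A
    have h5 : (0 : ℝ) ≤ (2 ^ k) ^ 2 := by positivity
    calc (2 : ℝ) * (32 * 2 ^ k) ^ 2 * A = 2048 * (2 ^ k) ^ 2 * A := by ring
      _ ≤ 2048 * (2 ^ k) ^ 2 * (|A| + 1) :=
        mul_le_mul_of_nonneg_left (by linarith) (by positivity)
  have e4 : (0 : ℝ) ≤ ((1 / 2 ^ k : ℝ) ^ C) ^ q := by positivity
  calc ((1 / 2 ^ k : ℝ) ^ C) ^ q * (2 * ((32 * 2 ^ k : ℕ) : ℝ) ^ 2 * A)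
      ≤ ((1 / 2 ^ k : ℝ) ^ C) ^ q * (2048 * (2 ^ k) ^ 2 * (|A| + 1)) :=
        mul_le_mul_of_nonneg_left e3 e4
    _ ≤ (1 / 2 : ℝ) ^ (3 * k) * (2048 * (2 ^ k) ^ 2 * (|A| + 1)) := by
        rw [e1]
        exact mul_le_mul_of_nonneg_right e2 (by positivity)
    _ = (1 / 2 : ℝ) ^ k * (2048 * (|A| + 1)) := by
        rw [pow_mul]
        have h6 : ((1 / 2 : ℝ) ^ 3) ^ k = (1 / 2) ^ k * (((1 / 2) ^ k) ^ 2) := by
          rw [← pow_mul, ← pow_mul, ← pow_add]
          congr 1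
          ring
        have h7 : (((1 / 2 : ℝ) ^ k) ^ 2) * (2 ^ k) ^ 2 = 1 := by
          rw [← mul_pow, ← mul_pow]
          norm_num
        rw [h6]
        calc (1 / 2 : ℝ) ^ k * (((1 / 2) ^ k) ^ 2) * (2048 * (2 ^ k) ^ 2 * (|A| + 1)) =
            (1 / 2) ^ k * (2048 * (|A| + 1)) * ((((1 / 2 : ℝ) ^ k) ^ 2) * (2 ^ k) ^ 2) := by ring
          _ = _ := by rw [h7, mul_one]
    _ ≤ th / (2 * (2048 * (|A| + 1))) * (2048 * (|A| + 1)) :=
        mul_le_mul_of_nonneg_right h2 (by positivity)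
    _ = th / 2 := by
        field_simp

end world

end P365T2.H77
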